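import Vale.Agent.Lib.PCP.Base

/-!
Polynomial-time arithmetic on integers and rationals, and list matrices.
-/

namespace Vale.Agent.P049

open Vale.Agent.Lib.TM

instance encInt : Enc ℤ := ⟨fun z => enc (decide (z < 0), z.natAbs)⟩

instance encRat : Enc ℚ := ⟨fun x => enc (x.num, x.den)⟩

variable {α : Type} [Enc α] {e : ℕ}

/-- One step of the algorithm of Euclid. -/
def gcdStep (s : ℕ × ℕ) : ℕ × ℕ := bif Nat.blt 0 s.1 then (s.2 % s.1, s.1) else s

lemma gcd_fold {X : Type} (c : List X) : ∀ u v : ℕ, u ≤ v → u * v < 2 ^ c.length →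
    (c.foldl (fun s _ => gcdStep s) (u, v)).2 = Nat.gcd u v := by
  induction c with
  | nil =>
    intro u v h1 h2
    have : u = 0 := by
      rcases Nat.eq_zero_or_pos u with h | h
      · exact h
      · have := Nat.mul_le_mul h (h.trans_le h1)
        simp at h2 this
        omega
    simp [this]
  | cons x c ih =>
    intro u v h1 h2
    rw [List.foldl_cons]
    rcases Nat.eq_zero_or_pos u with rfl | h
    · exact ih 0 v h1 (by simp)
    · have e1 : gcdStep (u, v) = (v % u, u) := by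
        have : Nat.blt 0 u = true := by simpa using h
        simp [gcdStep, this]
      have h3 := Nat.mod_lt v h
      have h4 : v % u + u ≤ v := by
        have h5 := Nat.div_add_mod v u
        have h6 : 1 ≤ v / u := (Nat.le_div_iff_mul_le h).2 (by omega)
        nlinarith
      rw [e1, ih _ _ h3.le, ← Nat.gcd_rec]
      rw [List.length_cons, pow_succ] at h2
      nlinarith

@[fun_prop]
theorem ct_gcd {m n : α → ℕ} (hm : CT e m) (hn : CT e n) : CT e fun a => Nat.gcd (m a) (n a) := by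
  have h := CT.foldl (e := e) (g := fun _ (s : ℕ × ℕ) (_ : Bool) => gcdStep s)
    (init := fun a => (min (m a) (n a), max (m a) (n a)))
    (l := fun a => (m a).bits ++ (n a).bits) (by unfold gcdStep; fun_prop) (by fun_prop)
    (by fun_prop) (Bd.const 0) (fun a s x => by
      have h1 := sz_mono (Nat.mod_le s.2 s.1)
      unfold gcdStep
      cases Nat.blt 0 s.1 <;> simp [sz_prod s]
      omega)
  refine h.snd.of_eq fun a => ?_
  rw [gcd_fold _ _ _ min_le_max]
  · rcases le_total (m a) (n a) with h | h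
    · rw [min_eq_left h, max_eq_right h]
    · rw [min_eq_right h, max_eq_left h, Nat.gcd_comm]
  · rw [min_mul_max, List.length_append, Nat.size_eq_bits_len, Nat.size_eq_bits_len, pow_add]
    exact Nat.mul_lt_mul'' (Nat.lt_size_self _) (Nat.lt_size_self _)

@[fun_prop]
theorem ct_natAbs {z : α → ℤ} (hz : CT e z) : CT e fun a => (z a).natAbs :=
  (hz.of_enc_eq (g := fun a => (decide (z a < 0), (z a).natAbs)) fun _ => rfl).snd

theorem ct_isNeg {z : α → ℤ} (hz : CT e z) : CT e fun a => decide (z a < 0) :=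
  (hz.of_enc_eq (g := fun a => (decide (z a < 0), (z a).natAbs)) fun _ => rfl).fst

theorem ct_int {z : α → ℤ} (h1 : CT e fun a => decide (z a < 0))
    (h2 : CT e fun a => (z a).natAbs) : CT e z :=
  (h1.mk h2).of_enc_eq fun _ => rfl

@[fun_prop]
theorem ct_num {x : α → ℚ} (hx : CT e x) : CT e fun a => (x a).num :=
  (hx.of_enc_eq (g := fun a => ((x a).num, (x a).den)) fun _ => rfl).fst

@[fun_prop]
theorem ct_den {x : α → ℚ} (hx : CT e x) : CT e fun a => (x a).den :=
  (hx.of_enc_eq (g := fun a => ((x a).num, (x a).den)) fun _ => rfl).snd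

theorem ct_subNat {m n : α → ℕ} (hm : CT e m) (hn : CT e n) :
    CT e fun a => (m a : ℤ) - n a :=
  ct_int ((hm.decLt hn).of_eq fun a => by simp)
    (((hm.sub hn).add (hn.sub hm)).of_eq fun a => by omega)

theorem ct_toNat {z : α → ℤ} (hz : CT e z) : CT e fun a => (z a).toNat :=
  ((ct_isNeg hz).cond (CT.const 0) (ct_natAbs hz)).of_eq fun a => by
    by_cases h : z a < 0 <;> simp [h] <;> omega

theorem ct_toNat_neg {z : α → ℤ} (hz : CT e z) : CT e fun a => (-z a).toNat :=
  ((ct_isNeg hz).cond (ct_natAbs hz) (CT.const 0)).of_eq fun a => by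
    by_cases h : z a < 0 <;> simp [h] <;> omega

theorem ct_intCast {m : α → ℕ} (hm : CT e m) : CT e fun a => (m a : ℤ) :=
  (ct_subNat hm (CT.const 0)).of_eq fun a => by simp

theorem ct_iadd {z w : α → ℤ} (hz : CT e z) (hw : CT e w) : CT e fun a => z a + w a :=
  (ct_subNat ((ct_toNat hz).add (ct_toNat hw))
    ((ct_toNat_neg hz).add (ct_toNat_neg hw))).of_eq fun a => by omega

theorem ct_imul {z w : α → ℤ} (hz : CT e z) (hw : CT e w) : CT e fun a => z a * w a :=
  (ct_subNat (((ct_toNat hz).mul (ct_toNat hw)).add ((ct_toNat_neg hz).mul (ct_toNat_neg hw)))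
    (((ct_toNat hz).mul (ct_toNat_neg hw)).add
      ((ct_toNat_neg hz).mul (ct_toNat hw)))).of_eq fun a => by
    have h1 := Int.toNat_sub_toNat_neg (z a)
    have h2 := Int.toNat_sub_toNat_neg (w a)
    push_cast
    generalize ((z a).toNat : ℤ) = p at *
    generalize ((-z a).toNat : ℤ) = q at *
    generalize ((w a).toNat : ℤ) = r at *
    generalize ((-w a).toNat : ℤ) = t at *
    rw [← h1, ← h2]
    ring

lemma natAbs_num_mkRat (z : ℤ) {d : ℕ} (hd : d ≠ 0) :
    (mkRat z d).num.natAbs = z.natAbs / d.gcd z.natAbs := by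
  rw [Rat.num_mkRat, if_neg hd, Int.natAbs_ediv_of_dvd, Int.natAbs_natCast]
  exact Int.natCast_dvd.2 (Nat.gcd_dvd_right _ _)

theorem ct_mkRat {z : α → ℤ} {d : α → ℕ} (hz : CT e z) (hd : CT e d) :
    CT e fun a => mkRat (z a) (d a) := by
  have hg := ct_gcd hd (ct_natAbs hz)
  have h0 := (CT.const (α := α) (e := e) 0).decLt hd
  have h1 : CT e fun a => (mkRat (z a) (d a)).num := by
    refine ct_int ((h0.and (ct_isNeg hz)).of_eq fun a => ?_)
      ((h0.cond ((ct_natAbs hz).div hg) (CT.const 0)).of_eq fun a => ?_)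
    · rcases Nat.eq_zero_or_pos (d a) with h | h
      · simp [h]
      · have h' : (0 : ℚ) < d a := by exact_mod_cast h
        simp [h, Rat.num_neg, Rat.mkRat_eq_div, div_neg_iff, h', h'.le.not_gt]
    · rcases Nat.eq_zero_or_pos (d a) with h | h
      · simp [h]
      · simp [h, natAbs_num_mkRat _ h.ne']
  have h2 : CT e fun a => (mkRat (z a) (d a)).den :=
    (h0.cond (hd.div hg) (CT.const 1)).of_eq fun a => by
      rcases Nat.eq_zero_or_pos (d a) with h | h
      · simp [h]
      · simp [h, Rat.den_mkRat, h.ne']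
  exact (h1.mk h2).of_enc_eq fun _ => rfl

@[fun_prop]
theorem ct_natCast {m : α → ℕ} (hm : CT e m) : CT e fun a => (m a : ℚ) :=
  (ct_mkRat (ct_intCast hm) (CT.const 1)).of_eq fun a => by simp [Rat.mkRat_eq_div]

@[fun_prop]
theorem ct_qadd {x y : α → ℚ} (hx : CT e x) (hy : CT e y) : CT e fun a => x a + y a :=
  (ct_mkRat (ct_iadd (ct_imul (ct_num hx) (ct_intCast (ct_den hy)))
    (ct_imul (ct_num hy) (ct_intCast (ct_den hx)))) ((ct_den hx).mul (ct_den hy))).of_eq
    fun _ => (Rat.add_def' _ _).symm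

@[fun_prop]
theorem ct_qneg {x : α → ℚ} (hx : CT e x) : CT e fun a => -x a :=
  (ct_mkRat (ct_imul (ct_num hx) (CT.const (-1))) (ct_den hx)).of_eq fun a => by
    rw [Rat.mkRat_eq_div]
    push_cast
    rw [mul_neg_one, neg_div, Rat.num_div_den]

@[fun_prop]
theorem ct_qsub {x y : α → ℚ} (hx : CT e x) (hy : CT e y) : CT e fun a => x a - y a :=
  (ct_qadd hx (ct_qneg hy)).of_eq fun _ => (sub_eq_add_neg _ _).symm

@[fun_prop]
theorem ct_qmul {x y : α → ℚ} (hx : CT e x) (hy : CT e y) : CT e fun a => x a * y a :=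
  (ct_mkRat (ct_imul (ct_num hx) (ct_num hy)) ((ct_den hx).mul (ct_den hy))).of_eq
    fun _ => (Rat.mul_def' _ _).symm

@[fun_prop]
theorem ct_qinv {x : α → ℚ} (hx : CT e x) : CT e fun a => (x a)⁻¹ :=
  (ct_mkRat (ct_imul (ct_num hx) (ct_intCast (ct_den hx)))
    ((ct_natAbs (ct_num hx)).mul (ct_natAbs (ct_num hx)))).of_eq fun a => by
    have h1 : (((x a).num.natAbs * (x a).num.natAbs : ℕ) : ℚ) = (x a).num * (x a).num := by
      rw [← Int.cast_natCast, Int.natAbs_mul_self]; push_cast; rfl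
    rw [Rat.mkRat_eq_div, h1]
    conv_rhs => rw [← Rat.num_div_den (x a), inv_div]
    push_cast
    by_cases h : ((x a).num : ℚ) = 0
    · simp [h]
    · field_simp

@[fun_prop]
theorem ct_qdiv {x y : α → ℚ} (hx : CT e x) (hy : CT e y) : CT e fun a => x a / y a :=
  (ct_qmul hx (ct_qinv hy)).of_eq fun _ => (div_eq_mul_inv _ _).symm

@[fun_prop]
theorem ct_qpow (k : ℕ) {x : α → ℚ} (hx : CT e x) : CT e fun a => x a ^ k := by
  induction k with
  | zero => exact (CT.const 1).of_eq fun _ => (pow_zero _).symm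
  | succ k ih => exact (ct_qmul ih hx).of_eq fun _ => (pow_succ _ _).symm

@[fun_prop]
theorem ct_qlt {x y : α → ℚ} (hx : CT e x) (hy : CT e y) : CT e fun a => decide (x a < y a) :=
  (ct_isNeg (ct_num (ct_qsub hx hy))).of_eq fun a => by simp [Rat.num_neg]

@[fun_prop]
theorem ct_qle {x y : α → ℚ} (hx : CT e x) (hy : CT e y) : CT e fun a => decide (x a ≤ y a) :=
  (ct_qlt hy hx).not.of_eq fun a => by
    rw [Bool.eq_iff_iff]; simp

lemma sz_rat (x : ℚ) : sz x = sz x.num.natAbs + sz x.den + 7 := by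
  have h1 : sz x = sz ((decide (x.num < 0), x.num.natAbs), x.den) := rfl
  rw [h1, sz_pair, sz_pair, sz_bool]
  omega

lemma sz_mkRat_le (z : ℤ) {d : ℕ} (hd : d ≠ 0) : sz (mkRat z d) ≤ sz z.natAbs + sz d + 7 := by
  rw [sz_rat, natAbs_num_mkRat z hd, Rat.den_mkRat, if_neg hd]
  have h1 := sz_mono (Nat.div_le_self z.natAbs (d.gcd z.natAbs))
  have h2 := sz_mono (Nat.div_le_self d (d.gcd z.natAbs))
  omega

lemma sz_qadd_le (x y : ℚ) : sz (x + y) ≤ 2 * sz x + 2 * sz y + 20 := by
  have h1 := sz_mkRat_le (x.num * y.den + y.num * x.den) (mul_ne_zero x.den_nz y.den_nz)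
  have h2 := sz_mono (Int.natAbs_add_le (x.num * y.den) (y.num * x.den))
  simp only [Int.natAbs_mul, Int.natAbs_natCast] at h2
  have h3 := sz_add_le (x.num.natAbs * y.den) (y.num.natAbs * x.den)
  have h4 := sz_mul_le x.num.natAbs y.den
  have h5 := sz_mul_le y.num.natAbs x.den
  have h6 := sz_mul_le x.den y.den
  rw [Rat.add_def', sz_rat x, sz_rat y]
  omega

/-- Size from a common denominator and an absolute bound. -/
lemma sz_q_le {x : ℚ} {D B : ℕ} (hD : 0 < D) (h : ∃ z : ℤ, x * D = z) (hB : |x| ≤ B) :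
    sz x ≤ sz (B * D) + sz D + 10 := by
  obtain ⟨z, hz⟩ := h
  have hD' : (0 : ℚ) < D := by exact_mod_cast hD
  have h1 : x = mkRat z D := by
    rw [Rat.mkRat_eq_div, ← hz]; field_simp
  have h2 : z.natAbs ≤ B * D := by
    have h3 : ((z.natAbs : ℕ) : ℚ) ≤ B * D := by
      rw [Nat.cast_natAbs, Int.cast_abs, ← hz, abs_mul, abs_of_pos hD']
      gcongr
    exact_mod_cast h3
  have h4 := sz_mkRat_le z hD.ne'
  have h5 := sz_mono h2
  rw [h1]
  omega

/-- A common denominator and an absolute bound. -/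
def QOk (D B : ℕ) (x : ℚ) : Prop := (∃ z : ℤ, x * D = z) ∧ |x| ≤ B

lemma QOk.zero (D B : ℕ) : QOk D B 0 := ⟨⟨0, by simp⟩, by simp⟩

lemma QOk.nat (k : ℕ) : QOk 1 k k := ⟨⟨k, by simp⟩, by simp⟩

lemma QOk.self (x : ℚ) : QOk x.den x.num.natAbs x := by
  refine ⟨⟨x.num, x.mul_den_eq_num⟩, ?_⟩
  have h1 : (1 : ℚ) ≤ x.den := by exact_mod_cast x.den_pos
  rw [Nat.cast_natAbs, Int.cast_abs, ← x.mul_den_eq_num, abs_mul, Nat.abs_cast]
  exact le_mul_of_one_le_right (abs_nonneg _) h1

lemma QOk.mono {D D' B B' : ℕ} {x : ℚ} (h : QOk D B x) (hD : D ∣ D') (hB : B ≤ B') :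
    QOk D' B' x := by
  obtain ⟨⟨z, hz⟩, h2⟩ := h
  obtain ⟨c, rfl⟩ := hD
  refine ⟨⟨z * c, ?_⟩, h2.trans (by exact_mod_cast hB)⟩
  push_cast
  rw [← hz, mul_assoc]

lemma QOk.add {D B B' : ℕ} {x y : ℚ} (h : QOk D B x) (h' : QOk D B' y) :
    QOk D (B + B') (x + y) := by
  obtain ⟨⟨z, hz⟩, h2⟩ := h
  obtain ⟨⟨w, hw⟩, h3⟩ := h'
  refine ⟨⟨z + w, ?_⟩, (abs_add_le _ _).trans ?_⟩
  · push_cast
    rw [← hz, ← hw, add_mul]
  · push_cast
    exact add_le_add h2 h3

lemma QOk.neg {D B : ℕ} {x : ℚ} (h : QOk D B x) : QOk D B (-x) := by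
  obtain ⟨⟨z, hz⟩, h2⟩ := h
  refine ⟨⟨-z, ?_⟩, by rwa [abs_neg]⟩
  push_cast
  rw [← hz, neg_mul]

lemma QOk.mul {D D' B B' : ℕ} {x y : ℚ} (h : QOk D B x) (h' : QOk D' B' y) :
    QOk (D * D') (B * B') (x * y) := by
  obtain ⟨⟨z, hz⟩, h2⟩ := h
  obtain ⟨⟨w, hw⟩, h3⟩ := h'
  refine ⟨⟨z * w, ?_⟩, ?_⟩
  · push_cast
    rw [← hz, ← hw]
    ring
  · push_cast
    rw [abs_mul]
    exact mul_le_mul h2 h3 (abs_nonneg _) (Nat.cast_nonneg _)

lemma QOk.sum {D B : ℕ} {l : List ℚ} (h : ∀ x ∈ l, QOk D B x) : QOk D (l.length * B) l.sum := by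
  induction l with
  | nil => simpa using QOk.zero D 0
  | cons x l ih =>
    rw [List.sum_cons, List.length_cons, add_mul, one_mul, add_comm (l.length * B)]
    exact (h x (by simp)).add (ih fun y hy => h y (by simp [hy]))

lemma QOk.of_mem {l : List ℚ} {x : ℚ} (h : x ∈ l) :
    QOk (l.map Rat.den).prod (l.map fun y => y.num.natAbs).sum x :=
  (QOk.self x).mono (List.dvd_prod (List.mem_map_of_mem h))
    (List.le_sum_of_mem (List.mem_map_of_mem (f := fun y : ℚ => y.num.natAbs) h))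

lemma den_prod_pos (l : List ℚ) : 0 < (l.map Rat.den).prod :=
  List.prod_pos fun x hx => by
    obtain ⟨y, -, rfl⟩ := List.mem_map.1 hx
    exact y.den_pos

lemma QOk.sz_le {D B : ℕ} {x : ℚ} (h : QOk D B x) (hD : 0 < D) :
    sz x ≤ sz (B * D) + sz D + 10 := sz_q_le hD h.1 h.2

/-- Sums of lists: use `CT.foldl_inv` with the product of the denominators as a common
denominator and the sum of the absolute values of the numerators as a bound. -/
@[fun_prop]
theorem ct_qsum {l : α → List ℚ} (hl : CT e l) : CT e fun a => (l a).sum := by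
  have hD : CT e fun a => ((l a).map Rat.den).prod :=
    (CT.map (f := fun _ x => Rat.den x) (by fun_prop) hl).prod
  have hB : CT e fun a => (l a).length * ((l a).map fun y => y.num.natAbs).sum :=
    hl.length.mul (CT.map (f := fun _ (y : ℚ) => y.num.natAbs) (by fun_prop) hl).sum
  refine (CT.foldl_inv (g := fun _ s x => s + x) (init := fun _ => 0) (by fun_prop) (CT.const 0) hl
    (((hB.mul hD).size.add hD.size).add (Bd.const 10))
    (fun a s r => ∃ p, p ++ r = l a ∧ s = p.sum) (fun a => ⟨[], rfl, rfl⟩) ?_ ?_).of_eq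
    fun a => List.sum_eq_foldl.symm
  · rintro a s x r ⟨p, h1, rfl⟩
    exact ⟨p ++ [x], by simpa using h1, by simp⟩
  · rintro a s r ⟨p, h1, rfl⟩
    have h2 : QOk ((l a).map Rat.den).prod _ p.sum :=
      QOk.sum fun x hx => QOk.of_mem (l := l a) (h1 ▸ List.mem_append_left _ hx)
    refine (h2.mono dvd_rfl (Nat.mul_le_mul_right _ ?_)).sz_le (den_prod_pos _)
    rw [← h1]
    simp

/-- Entry of a list matrix. -/
def mget (A : List (List ℚ)) (i j : ℕ) : ℚ := (A.getD i []).getD j 0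

/-- Square table of a function, with the size given by the length of a list. -/
def mtab {β : Type} (l : List β) (f : ℕ → ℕ → ℚ) : List (List ℚ) :=
  (List.range l.length).map fun i => (List.range l.length).map fun j => f i j

/-- The sum of `f i` over `i` below the length of a list. -/
def lsum {β : Type} (l : List β) (f : ℕ → ℚ) : ℚ := ((List.range l.length).map f).sum

/-- The real matrix of a list matrix. -/
def toMat (n : ℕ) (A : List (List ℚ)) : Matrix (Fin n) (Fin n) ℝ := fun i j => (mget A i j : ℝ)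

@[fun_prop]
theorem ct_mget {A : α → List (List ℚ)} {i j : α → ℕ} (hA : CT e A) (hi : CT e i) (hj : CT e j) :
    CT e fun a => mget (A a) (i a) (j a) :=
  (hA.getD hi (CT.const [])).getD hj (CT.const 0)

@[fun_prop]
theorem ct_mtab {β : Type} [Enc β] {l : α → List β} {f : α → ℕ → ℕ → ℚ} (hl : CT e l)
    (hf : CT e fun p : α × ℕ × ℕ => f p.1 p.2.1 p.2.2) : CT e fun a => mtab (l a) (f a) :=
  CT.map (f := fun a i => (List.range (l a).length).map fun j => f a i j)
    (CT.map (f := fun (p : α × ℕ) j => f p.1 p.2 j)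
      (hf.comp (g := fun q : (α × ℕ) × ℕ => (q.1.1, q.1.2, q.2)) (by fun_prop))
      (hl.comp (g := fun p : α × ℕ => p.1) (by fun_prop)).range_length) hl.range_length

@[fun_prop]
theorem ct_lsum {β : Type} [Enc β] {l : α → List β} {f : α → ℕ → ℚ} (hl : CT e l)
    (hf : CT e fun p : α × ℕ => f p.1 p.2) : CT e fun a => lsum (l a) (f a) :=
  ct_qsum (CT.map hf hl.range_length)

lemma length_mtab {β : Type} (l : List β) (f : ℕ → ℕ → ℚ) : (mtab l f).length = l.length := by
  simp [mtab]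

lemma mget_mtab {β : Type} (l : List β) (f : ℕ → ℕ → ℚ) {i j : ℕ} (hi : i < l.length)
    (hj : j < l.length) : mget (mtab l f) i j = f i j := by
  simp [mget, mtab, List.getD_eq_getElem?_getD, hi, hj]

lemma cast_lsum {β : Type} (l : List β) (f : ℕ → ℚ) {n : ℕ} (hn : l.length = n) :
    (lsum l f : ℝ) = ∑ i : Fin n, (f i : ℝ) := by
  rw [Fin.sum_univ_eq_sum_range (fun i => (f i : ℝ)) n, lsum, hn]
  clear hn
  induction n with
  | zero => simp
  | succ n ih => rw [List.sum_range_succ, Finset.sum_range_succ, Rat.cast_add, ih]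

end Vale.Agent.P049
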